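import Vale.Agent.Lib.P038.Sat.I.L2a.S0
import Vale.Agent.Lib.P038.Sat.I.L2a.S1
import Vale.Agent.Lib.P038.Sat.I.L2a.S2
import Vale.Agent.Lib.P038.Sat.I.L2a.S3
import Vale.Agent.Lib.P038.Sat.I.L2a.S4
import Vale.Agent.Lib.P038.Sat.I.L2a.S5
import Vale.Agent.Lib.P038.Sat.I.L2a.S6
import Vale.Agent.Lib.P038.Sat.I.L2a.S7
import Vale.Agent.Lib.P038.Sat.I.L2a.S8
import Vale.Agent.Lib.P038.Sat.I.L2a.S9
import Vale.Agent.Lib.P038.Sat.I.L2a.S10
import Vale.Agent.Lib.P038.Sat.I.L2a.S11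
import Vale.Agent.Lib.P038.Sat.I.L2a.S12
import Vale.Agent.Lib.P038.Sat.I.L2a.S13
import Vale.Agent.Lib.P038.Sat.I.L2a.S14
import Vale.Agent.Lib.P038.Sat.I.L2a.S15
import Vale.Agent.Lib.P038.Sat.I.L2a.S16
import Vale.Agent.Lib.P038.Sat.I.L2a.S17
import Vale.Agent.Lib.P038.Sat.I.L2a.S18
import Vale.Agent.Lib.P038.Sat.I.L2a.S19
import Vale.Agent.Lib.P038.Sat.I.L2a.S20
import Vale.Agent.Lib.P038.Sat.I.L2a.S21
import Vale.Agent.Lib.P038.Sat.I.L2a.S22
import Vale.Agent.Lib.P038.Sat.I.L2a.S23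
import Vale.Agent.Lib.P038.Sat.I.L2a.S24
import Vale.Agent.Lib.P038.Sat.I.L2a.S25
import Vale.Agent.Lib.P038.Sat.I.L2a.S26
import Vale.Agent.Lib.P038.Sat.I.L2a.S27
import Vale.Agent.Lib.P038.Sat.I.L2a.S28
import Vale.Agent.Lib.P038.Sat.I.L2a.S29
import Vale.Agent.Lib.P038.Sat.I.L2a.S30
import Vale.Agent.Lib.P038.Sat.I.L2a.S31
import Vale.Agent.Lib.P038.Sat.I.L2a.S32
import Vale.Agent.Lib.P038.Sat.I.L2a.S33
import Vale.Agent.Lib.P038.Sat.I.L2a.S34
import Vale.Agent.Lib.P038.Sat.I.L2a.S35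
import Vale.Agent.Lib.P038.Sat.I.L2a.S36
import Vale.Agent.Lib.P038.Sat.I.L2a.S37
import Vale.Agent.Lib.P038.Sat.I.L2a.S38
import Vale.Agent.Lib.P038.Sat.I.L2a.S39
import Vale.Agent.Lib.P038.Sat.I.L2a.S40
import Vale.Agent.Lib.P038.Sat.I.L2a.S41
import Vale.Agent.Lib.P038.Sat.I.L2a.S42
noncomputable section
namespace Vale.Agent.Lib.P038.Sat.I.L2a
open Vale.Agent.Lib.P038.Sat
theorem unsat (K : Conf) (hK : Good sh_6_0_f (flL2a) K) : False := by
  have hg := gen_sound (chkParts sh_6_0_f_chk) hK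
  have h0 : ∀ g, g < 0 → HL W (loc GT (Val sh_6_0_f K)) (getB H g) := fun g h => absurd h (Nat.not_lt_zero g)
  have h1 := seg_chain (P := fun g => HL W (loc GT (Val sh_6_0_f K)) (getB H g)) h0 (S0.seg hg)
  have h2 := seg_chain (P := fun g => HL W (loc GT (Val sh_6_0_f K)) (getB H g)) h1 (S1.seg hg)
  have h3 := seg_chain (P := fun g => HL W (loc GT (Val sh_6_0_f K)) (getB H g)) h2 (S2.seg hg)
  have h4 := seg_chain (P := fun g => HL W (loc GT (Val sh_6_0_f K)) (getB H g)) h3 (S3.seg hg)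
  have h5 := seg_chain (P := fun g => HL W (loc GT (Val sh_6_0_f K)) (getB H g)) h4 (S4.seg hg)
  have h6 := seg_chain (P := fun g => HL W (loc GT (Val sh_6_0_f K)) (getB H g)) h5 (S5.seg hg)
  have h7 := seg_chain (P := fun g => HL W (loc GT (Val sh_6_0_f K)) (getB H g)) h6 (S6.seg hg)
  have h8 := seg_chain (P := fun g => HL W (loc GT (Val sh_6_0_f K)) (getB H g)) h7 (S7.seg hg)
  have h9 := seg_chain (P := fun g => HL W (loc GT (Val sh_6_0_f K)) (getB H g)) h8 (S8.seg hg)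
  have h10 := seg_chain (P := fun g => HL W (loc GT (Val sh_6_0_f K)) (getB H g)) h9 (S9.seg hg)
  have h11 := seg_chain (P := fun g => HL W (loc GT (Val sh_6_0_f K)) (getB H g)) h10 (S10.seg hg)
  have h12 := seg_chain (P := fun g => HL W (loc GT (Val sh_6_0_f K)) (getB H g)) h11 (S11.seg hg)
  have h13 := seg_chain (P := fun g => HL W (loc GT (Val sh_6_0_f K)) (getB H g)) h12 (S12.seg hg)
  have h14 := seg_chain (P := fun g => HL W (loc GT (Val sh_6_0_f K)) (getB H g)) h13 (S13.seg hg)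
  have h15 := seg_chain (P := fun g => HL W (loc GT (Val sh_6_0_f K)) (getB H g)) h14 (S14.seg hg)
  have h16 := seg_chain (P := fun g => HL W (loc GT (Val sh_6_0_f K)) (getB H g)) h15 (S15.seg hg)
  have h17 := seg_chain (P := fun g => HL W (loc GT (Val sh_6_0_f K)) (getB H g)) h16 (S16.seg hg)
  have h18 := seg_chain (P := fun g => HL W (loc GT (Val sh_6_0_f K)) (getB H g)) h17 (S17.seg hg)
  have h19 := seg_chain (P := fun g => HL W (loc GT (Val sh_6_0_f K)) (getB H g)) h18 (S18.seg hg)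
  have h20 := seg_chain (P := fun g => HL W (loc GT (Val sh_6_0_f K)) (getB H g)) h19 (S19.seg hg)
  have h21 := seg_chain (P := fun g => HL W (loc GT (Val sh_6_0_f K)) (getB H g)) h20 (S20.seg hg)
  have h22 := seg_chain (P := fun g => HL W (loc GT (Val sh_6_0_f K)) (getB H g)) h21 (S21.seg hg)
  have h23 := seg_chain (P := fun g => HL W (loc GT (Val sh_6_0_f K)) (getB H g)) h22 (S22.seg hg)
  have h24 := seg_chain (P := fun g => HL W (loc GT (Val sh_6_0_f K)) (getB H g)) h23 (S23.seg hg)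
  have h25 := seg_chain (P := fun g => HL W (loc GT (Val sh_6_0_f K)) (getB H g)) h24 (S24.seg hg)
  have h26 := seg_chain (P := fun g => HL W (loc GT (Val sh_6_0_f K)) (getB H g)) h25 (S25.seg hg)
  have h27 := seg_chain (P := fun g => HL W (loc GT (Val sh_6_0_f K)) (getB H g)) h26 (S26.seg hg)
  have h28 := seg_chain (P := fun g => HL W (loc GT (Val sh_6_0_f K)) (getB H g)) h27 (S27.seg hg)
  have h29 := seg_chain (P := fun g => HL W (loc GT (Val sh_6_0_f K)) (getB H g)) h28 (S28.seg hg)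
  have h30 := seg_chain (P := fun g => HL W (loc GT (Val sh_6_0_f K)) (getB H g)) h29 (S29.seg hg)
  have h31 := seg_chain (P := fun g => HL W (loc GT (Val sh_6_0_f K)) (getB H g)) h30 (S30.seg hg)
  have h32 := seg_chain (P := fun g => HL W (loc GT (Val sh_6_0_f K)) (getB H g)) h31 (S31.seg hg)
  have h33 := seg_chain (P := fun g => HL W (loc GT (Val sh_6_0_f K)) (getB H g)) h32 (S32.seg hg)
  have h34 := seg_chain (P := fun g => HL W (loc GT (Val sh_6_0_f K)) (getB H g)) h33 (S33.seg hg)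
  have h35 := seg_chain (P := fun g => HL W (loc GT (Val sh_6_0_f K)) (getB H g)) h34 (S34.seg hg)
  have h36 := seg_chain (P := fun g => HL W (loc GT (Val sh_6_0_f K)) (getB H g)) h35 (S35.seg hg)
  have h37 := seg_chain (P := fun g => HL W (loc GT (Val sh_6_0_f K)) (getB H g)) h36 (S36.seg hg)
  have h38 := seg_chain (P := fun g => HL W (loc GT (Val sh_6_0_f K)) (getB H g)) h37 (S37.seg hg)
  have h39 := seg_chain (P := fun g => HL W (loc GT (Val sh_6_0_f K)) (getB H g)) h38 (S38.seg hg)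
  have h40 := seg_chain (P := fun g => HL W (loc GT (Val sh_6_0_f K)) (getB H g)) h39 (S39.seg hg)
  have h41 := seg_chain (P := fun g => HL W (loc GT (Val sh_6_0_f K)) (getB H g)) h40 (S40.seg hg)
  have h42 := seg_chain (P := fun g => HL W (loc GT (Val sh_6_0_f K)) (getB H g)) h41 (S41.seg hg)
  have h43 := seg_chain (P := fun g => HL W (loc GT (Val sh_6_0_f K)) (getB H g)) h42 (S42.seg hg)
  have hz := h43 18220 (by decide)
  rw [hlast] at hz
  exact HL_zero _ _ hz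
end Vale.Agent.Lib.P038.Sat.I.L2a
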